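import Vale.Agent.P365.FVC.Reg

set_option linter.all false

/-!
# P365 / FVC / Two: moments of quotients of functions which are affine in each of two variables,
uniformly over the class `Reg`; reverse Hölder inequality.
-/

namespace P365L.FVC

open MeasureTheory ProbabilityTheory Complex Filter Topology
open scoped ENNReal NNReal Real

variable {C0 c0 : ℝ} {ν : Measure ℝ}

theorem Reg.null_singleton (h : Reg C0 c0 ν) (x : ℝ) : ν {x} = 0 := by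
  have h3 := nu_Icc_le x x le_rfl
  rw [Set.Icc_self, sub_self, ENNReal.ofReal_zero] at h3
  have h4 := h.upper {x}
  rw [Measure.smul_apply, smul_eq_mul, le_antisymm h3 zero_le, mul_zero] at h4
  exact le_antisymm h4 zero_le

/-- negative moments, extended nonnegative form -/
theorem neg_moment' {r : ℝ} (h0 : 0 < r) (h1 : r < 1) (C0 : ℝ) : ∃ K : ℝ, 0 < K ∧
    ∀ (c0 : ℝ) (ν : Measure ℝ), Reg C0 c0 ν → ∀ a b : ℂ,
      ∫⁻ u : ℝ, (‖a + u * b‖ₑ ^ r)⁻¹ ∂ν ≤ ENNReal.ofReal K * ((‖a‖ₑ + ‖b‖ₑ) ^ r)⁻¹ := by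
  obtain ⟨K, hK, H⟩ := neg_moment h0 h1 C0
  refine ⟨K, hK, fun c0 ν hν a b => ?_⟩
  by_cases hab : ‖a‖ + ‖b‖ = 0
  · have ha : a = 0 := by
      rw [← norm_eq_zero]; nlinarith [norm_nonneg a, norm_nonneg b]
    have hb : b = 0 := by
      rw [← norm_eq_zero]; nlinarith [norm_nonneg a, norm_nonneg b]
    subst ha hb
    simp only [enorm_zero, add_zero]
    rw [ENNReal.zero_rpow_of_pos h0, ENNReal.inv_zero, ENNReal.mul_top (by simpa using hK)]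
    exact le_top
  · have hab' : 0 < ‖a‖ + ‖b‖ := lt_of_le_of_ne (by positivity) (Ne.symm hab)
    have hconv : ∀ x : ℝ, 0 < x → ENNReal.ofReal (x ^ (-r)) = ((ENNReal.ofReal x) ^ r)⁻¹ := by
      intro x hx
      rw [← ENNReal.ofReal_rpow_of_pos hx, ENNReal.rpow_neg]
    have hae : ∀ᵐ u : ℝ ∂ν, a + u * b ≠ 0 := by
      by_cases hb : b = 0
      · subst hb
        refine Eventually.of_forall fun u h => ?_
        rw [mul_zero, add_zero] at h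
        rw [h] at hab'
        simp at hab'
      · have h2 : ∀ᵐ u : ℝ ∂ν, u ≠ (-a / b).re := by
          rw [ae_iff]
          simp only [ne_eq, not_not, Set.setOf_eq_eq_singleton]
          exact hν.null_singleton _
        filter_upwards [h2] with u hu h
        apply hu
        have h3 : -a / b = u := by
          field_simp
          linear_combination -h
        rw [h3, ofReal_re]
    have h2 : ∫⁻ u : ℝ, (‖a + u * b‖ₑ ^ r)⁻¹ ∂ν =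
        ∫⁻ u : ℝ, ENNReal.ofReal (‖a + u * b‖ ^ (-r)) ∂ν := by
      refine lintegral_congr_ae ?_
      filter_upwards [hae] with u hu
      rw [hconv _ (norm_pos_iff.2 hu), ofReal_norm_eq_enorm]
    rw [h2]
    refine (H c0 ν hν a b hab').trans ?_
    rw [ENNReal.ofReal_mul hK.le, hconv _ hab', ENNReal.ofReal_add (norm_nonneg _) (norm_nonneg _),
      ofReal_norm_eq_enorm, ofReal_norm_eq_enorm]

/-- a function of two variables, affine in each of them -/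
def MA (n : Fin 4 → ℂ) (u v : ℝ) : ℂ := n 0 + u * n 1 + v * n 2 + u * v * n 3

/-- size of the coefficients -/
noncomputable def nm (n : Fin 4 → ℂ) : ℝ≥0∞ := ‖n 0‖ₑ + ‖n 1‖ₑ + ‖n 2‖ₑ + ‖n 3‖ₑ

theorem nm_ne_top (n : Fin 4 → ℂ) : nm n ≠ ⊤ := by
  unfold nm
  simp only [ne_eq, ENNReal.add_eq_top, enorm_ne_top, or_self, not_false_eq_true]

theorem MA_eq (n : Fin 4 → ℂ) (u v : ℝ) :
    MA n u v = (n 0 + v * n 2) + u * (n 1 + v * n 3) := by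
  unfold MA; ring

theorem measurable_MA (n : Fin 4 → ℂ) : Measurable fun p : ℝ × ℝ => MA n p.1 p.2 := by
  unfold MA
  fun_prop

theorem enorm_ofReal' (u : ℝ) : ‖(u : ℂ)‖ₑ = ENNReal.ofReal |u| := by
  rw [← ofReal_norm_eq_enorm, Complex.norm_real, Real.norm_eq_abs]

theorem MA_le (n : Fin 4 → ℂ) (u v : ℝ) :
    ‖MA n u v‖ₑ ≤ nm n * (ENNReal.ofReal (1 + |u|) * ENNReal.ofReal (1 + |v|)) := by
  rw [ENNReal.ofReal_add zero_le_one (abs_nonneg _), ENNReal.ofReal_add zero_le_one (abs_nonneg _),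
    ENNReal.ofReal_one, ← enorm_ofReal', ← enorm_ofReal']
  set x := ‖(u : ℂ)‖ₑ
  set y := ‖(v : ℂ)‖ₑ
  unfold MA nm
  refine (enorm_add_le _ _).trans ?_
  refine (add_le_add_left ((enorm_add_le _ _).trans (add_le_add_left (enorm_add_le _ _) _)) _).trans
    ?_
  rw [enorm_mul, enorm_mul, enorm_mul, enorm_mul]
  calc ‖n 0‖ₑ + x * ‖n 1‖ₑ + y * ‖n 2‖ₑ + x * y * ‖n 3‖ₑ
      ≤ ‖n 0‖ₑ * ((1 + x) * (1 + y)) + ‖n 1‖ₑ * ((1 + x) * (1 + y)) +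
        ‖n 2‖ₑ * ((1 + x) * (1 + y)) + ‖n 3‖ₑ * ((1 + x) * (1 + y)) := by
        have e : (1 + x) * (1 + y) = 1 + x + y + x * y := by ring
        refine add_le_add (add_le_add (add_le_add ?_ ?_) ?_) ?_
        · calc ‖n 0‖ₑ = ‖n 0‖ₑ * 1 := (mul_one _).symm
            _ ≤ _ := mul_le_mul_right (by rw [e, add_assoc, add_assoc]; exact le_self_add) _
        · rw [mul_comm]
          refine mul_le_mul_right ?_ _
          rw [e]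
          calc x ≤ 1 + x := le_add_self
            _ ≤ 1 + x + (y + x * y) := le_self_add
            _ = _ := by ring
        · rw [mul_comm]
          refine mul_le_mul_right ?_ _
          rw [e]
          calc y ≤ (1 + x) + y := le_add_self
            _ ≤ 1 + x + y + x * y := le_self_add
        · rw [mul_comm]
          refine mul_le_mul_right ?_ _
          rw [e]
          exact le_add_self
    _ = _ := by ring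

/-- Young's inequality without constants -/
theorem mul_le_sq (a b : ℝ≥0∞) : a * b ≤ a ^ 2 + b ^ 2 := by
  rcases le_total a b with h | h
  · calc a * b ≤ b * b := mul_le_mul_left h b
      _ = b ^ 2 := (sq b).symm
      _ ≤ _ := le_add_self
  · calc a * b ≤ a * a := mul_le_mul_right h a
      _ = a ^ 2 := (sq a).symm
      _ ≤ _ := le_self_add

theorem mul_le_scaled (a b c : ℝ≥0∞) (hc0 : c ≠ 0) (hct : c ≠ ⊤) :
    a * b ≤ c⁻¹ * (a ^ 2 + (c * b) ^ 2) := by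
  calc a * b = c⁻¹ * (a * (c * b)) := by
        rw [mul_left_comm a c b, ← mul_assoc, ENNReal.inv_mul_cancel hc0 hct, one_mul]
    _ ≤ _ := mul_le_mul_right (mul_le_sq _ _) _

theorem rpow_sq (x : ℝ≥0∞) (t : ℝ) : (x ^ t) ^ 2 = x ^ (2 * t) := by
  rw [mul_comm, ENNReal.rpow_mul, ENNReal.rpow_two]

/-- negative moments of a bi-affine function -/
theorem neg_two {r : ℝ} (h0 : 0 < r) (h1 : r < 1) (C0 : ℝ) : ∃ K : ℝ, 0 < K ∧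
    ∀ (c0 : ℝ) (ν : Measure ℝ), Reg C0 c0 ν → ∀ d : Fin 4 → ℂ,
      ∫⁻ v, ∫⁻ u, (‖MA d u v‖ₑ ^ r)⁻¹ ∂ν ∂ν ≤ ENNReal.ofReal K * ((nm d) ^ r)⁻¹ := by
  obtain ⟨K, hK, H⟩ := neg_moment' h0 h1 C0
  refine ⟨K * (K * 2), by positivity, fun c0 ν hν d => ?_⟩
  have hfin : ENNReal.ofReal K ≠ ⊤ := ENNReal.ofReal_ne_top
  have s1 : ∀ v : ℝ, ∫⁻ u, (‖MA d u v‖ₑ ^ r)⁻¹ ∂ν ≤
      ENNReal.ofReal K * ((‖d 0 + v * d 2‖ₑ + ‖d 1 + v * d 3‖ₑ) ^ r)⁻¹ := by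
    intro v
    simp only [MA_eq]
    exact H c0 ν hν _ _
  have s2 : ∫⁻ v, ∫⁻ u, (‖MA d u v‖ₑ ^ r)⁻¹ ∂ν ∂ν ≤
      ENNReal.ofReal K * ∫⁻ v, ((‖d 0 + v * d 2‖ₑ + ‖d 1 + v * d 3‖ₑ) ^ r)⁻¹ ∂ν := by
    refine (lintegral_mono s1).trans ?_
    rw [lintegral_const_mul' _ _ hfin]
  have s3 : ∫⁻ v : ℝ, ((‖d 0 + v * d 2‖ₑ + ‖d 1 + v * d 3‖ₑ) ^ r)⁻¹ ∂ν ≤
      ENNReal.ofReal K * ((‖d 0‖ₑ + ‖d 2‖ₑ) ^ r)⁻¹ := by
    refine (lintegral_mono fun v => ?_).trans (H c0 ν hν (d 0) (d 2))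
    exact ENNReal.inv_le_inv.2 (ENNReal.rpow_le_rpow le_self_add h0.le)
  have s4 : ∫⁻ v : ℝ, ((‖d 0 + v * d 2‖ₑ + ‖d 1 + v * d 3‖ₑ) ^ r)⁻¹ ∂ν ≤
      ENNReal.ofReal K * ((‖d 1‖ₑ + ‖d 3‖ₑ) ^ r)⁻¹ := by
    refine (lintegral_mono fun v => ?_).trans (H c0 ν hν (d 1) (d 3))
    exact ENNReal.inv_le_inv.2 (ENNReal.rpow_le_rpow le_add_self h0.le)
  have s5 : ∀ X : ℝ≥0∞, nm d ≤ 2 * X → (X ^ r)⁻¹ ≤ 2 * ((nm d) ^ r)⁻¹ := by
    intro X hX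
    have h2 : (nm d) ^ r ≤ 2 * X ^ r := by
      calc (nm d) ^ r ≤ (2 * X) ^ r := ENNReal.rpow_le_rpow hX h0.le
        _ = 2 ^ r * X ^ r := ENNReal.mul_rpow_of_nonneg _ _ h0.le
        _ ≤ 2 * X ^ r := by
          refine mul_le_mul_left ?_ _
          calc (2 : ℝ≥0∞) ^ r ≤ 2 ^ (1 : ℝ) :=
                ENNReal.rpow_le_rpow_of_exponent_le (by norm_num) h1.le
            _ = 2 := ENNReal.rpow_one 2
    have h3 : (2 * X ^ r)⁻¹ ≤ ((nm d) ^ r)⁻¹ := ENNReal.inv_le_inv.2 h2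
    rw [ENNReal.mul_inv (Or.inl (by norm_num)) (Or.inl (by norm_num))] at h3
    calc (X ^ r)⁻¹ = 2 * (2⁻¹ * (X ^ r)⁻¹) := by
          rw [← mul_assoc, ENNReal.mul_inv_cancel (by norm_num) (by norm_num), one_mul]
      _ ≤ _ := mul_le_mul_right h3 _
  refine s2.trans ?_
  have s6 : ∫⁻ v : ℝ, ((‖d 0 + v * d 2‖ₑ + ‖d 1 + v * d 3‖ₑ) ^ r)⁻¹ ∂ν ≤
      ENNReal.ofReal K * (2 * ((nm d) ^ r)⁻¹) := by
    have e : nm d = (‖d 0‖ₑ + ‖d 2‖ₑ) + (‖d 1‖ₑ + ‖d 3‖ₑ) := by unfold nm; ring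
    rcases le_total (‖d 0‖ₑ + ‖d 2‖ₑ) (‖d 1‖ₑ + ‖d 3‖ₑ) with h | h
    · refine s4.trans (mul_le_mul_right (s5 _ ?_) _)
      rw [e, two_mul]
      exact add_le_add_left h _
    · refine s3.trans (mul_le_mul_right (s5 _ ?_) _)
      rw [e, two_mul]
      exact add_le_add_right h _
  refine (mul_le_mul_right s6 _).trans (le_of_eq ?_)
  rw [ENNReal.ofReal_mul hK.le, ENNReal.ofReal_mul hK.le]
  rw [show ENNReal.ofReal 2 = 2 by norm_num]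
  ring

/-- **upper bound** -/
theorem upper_two {t : ℝ} (h0 : 0 < t) (h1 : t < 1 / 2) (C0 : ℝ) : ∃ K : ℝ, 0 < K ∧
    ∀ (c0 : ℝ) (ν : Measure ℝ), Reg C0 c0 ν → ∀ n d : Fin 4 → ℂ, nm d ≠ 0 →
      ∫⁻ v, ∫⁻ u, ‖MA n u v‖ₑ ^ t * (‖MA d u v‖ₑ ^ t)⁻¹ ∂ν ∂ν ≤
        ENNReal.ofReal K * ((nm n) ^ t * ((nm d) ^ t)⁻¹) := by
  obtain ⟨K, hK, H⟩ := neg_two (r := 2 * t) (by linarith) (by linarith) C0
  obtain ⟨M, hM, HM⟩ := pos_moment (r := 2 * t) (by linarith) (by linarith) C0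
  refine ⟨M * M + K, by positivity, fun c0 ν hν n d hd => ?_⟩
  have hΔ0 : (nm d) ^ t ≠ 0 := by
    rw [ne_eq, ENNReal.rpow_eq_zero_iff_of_pos h0]; exact hd
  have hΔt : (nm d) ^ t ≠ ⊤ := ENNReal.rpow_ne_top_of_nonneg h0.le (nm_ne_top d)
  have hpt : ∀ u v : ℝ, ‖MA n u v‖ₑ ^ t * (‖MA d u v‖ₑ ^ t)⁻¹ ≤
      (nm n) ^ t * ((nm d) ^ t)⁻¹ * (ENNReal.ofReal ((1 + |u|) ^ (2 * t)) *
        ENNReal.ofReal ((1 + |v|) ^ (2 * t)) + (nm d) ^ (2 * t) * (‖MA d u v‖ₑ ^ (2 * t))⁻¹) := by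
    intro u v
    have h2 : ‖MA n u v‖ₑ ^ t ≤ (nm n) ^ t *
        (ENNReal.ofReal (1 + |u|) * ENNReal.ofReal (1 + |v|)) ^ t := by
      rw [← ENNReal.mul_rpow_of_nonneg _ _ h0.le]
      exact ENNReal.rpow_le_rpow (MA_le n u v) h0.le
    refine (mul_le_mul_left h2 _).trans ?_
    rw [mul_assoc, mul_assoc]
    refine mul_le_mul_right ?_ _
    refine (mul_le_scaled _ _ _ hΔ0 hΔt).trans (le_of_eq ?_)
    congr 2
    · rw [rpow_sq, ENNReal.mul_rpow_of_nonneg _ _ (by linarith),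
        ENNReal.ofReal_rpow_of_nonneg (by positivity) (by linarith),
        ENNReal.ofReal_rpow_of_nonneg (by positivity) (by linarith)]
    · rw [mul_pow, rpow_sq, ← ENNReal.inv_pow, rpow_sq]
  have hfin : (nm n) ^ t * ((nm d) ^ t)⁻¹ ≠ ⊤ :=
    ENNReal.mul_ne_top (ENNReal.rpow_ne_top_of_nonneg h0.le (nm_ne_top n)) (ENNReal.inv_ne_top.2 hΔ0)
  have hfin2 : (nm d) ^ (2 * t) ≠ ⊤ := ENNReal.rpow_ne_top_of_nonneg (by linarith) (nm_ne_top d)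
  have hm1 : Measurable fun u : ℝ => ENNReal.ofReal ((1 + |u|) ^ (2 * t)) :=
    ENNReal.measurable_ofReal.comp ((measurable_const.add measurable_abs).pow_const _)
  calc ∫⁻ v, ∫⁻ u, ‖MA n u v‖ₑ ^ t * (‖MA d u v‖ₑ ^ t)⁻¹ ∂ν ∂ν
      ≤ ∫⁻ v, ∫⁻ u, (nm n) ^ t * ((nm d) ^ t)⁻¹ * (ENNReal.ofReal ((1 + |u|) ^ (2 * t)) *
        ENNReal.ofReal ((1 + |v|) ^ (2 * t)) + (nm d) ^ (2 * t) * (‖MA d u v‖ₑ ^ (2 * t))⁻¹)
          ∂ν ∂ν := lintegral_mono fun v => lintegral_mono fun u => hpt u v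
    _ = (nm n) ^ t * ((nm d) ^ t)⁻¹ * ((∫⁻ u, ENNReal.ofReal ((1 + |u|) ^ (2 * t)) ∂ν) *
          (∫⁻ v, ENNReal.ofReal ((1 + |v|) ^ (2 * t)) ∂ν) +
          (nm d) ^ (2 * t) * ∫⁻ v, ∫⁻ u, (‖MA d u v‖ₑ ^ (2 * t))⁻¹ ∂ν ∂ν) := by
        have e1 : ∀ v : ℝ, ∫⁻ u, (nm n) ^ t * ((nm d) ^ t)⁻¹ * (ENNReal.ofReal ((1 + |u|) ^ (2 * t)) *
            ENNReal.ofReal ((1 + |v|) ^ (2 * t)) + (nm d) ^ (2 * t) * (‖MA d u v‖ₑ ^ (2 * t))⁻¹) ∂ν =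
            (nm n) ^ t * ((nm d) ^ t)⁻¹ * ((∫⁻ u, ENNReal.ofReal ((1 + |u|) ^ (2 * t)) ∂ν) *
              ENNReal.ofReal ((1 + |v|) ^ (2 * t)) +
              (nm d) ^ (2 * t) * ∫⁻ u, (‖MA d u v‖ₑ ^ (2 * t))⁻¹ ∂ν) := by
          intro v
          rw [lintegral_const_mul' _ _ hfin, lintegral_add_left (hm1.mul_const _),
            lintegral_mul_const _ hm1, lintegral_const_mul' _ _ hfin2]
        simp only [e1]
        rw [lintegral_const_mul' _ _ hfin, lintegral_add_left (hm1.const_mul _),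
          lintegral_const_mul _ hm1, lintegral_const_mul' _ _ hfin2]
    _ ≤ (nm n) ^ t * ((nm d) ^ t)⁻¹ * (ENNReal.ofReal M * ENNReal.ofReal M +
          (nm d) ^ (2 * t) * (ENNReal.ofReal K * ((nm d) ^ (2 * t))⁻¹)) := by
        refine mul_le_mul_right (add_le_add (mul_le_mul' (HM c0 ν hν) (HM c0 ν hν)) ?_) _
        exact mul_le_mul_right (H c0 ν hν d) _
    _ = ENNReal.ofReal (M * M + K) * ((nm n) ^ t * ((nm d) ^ t)⁻¹) := by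
        have h2 : (nm d) ^ (2 * t) ≠ 0 := by
          rw [ne_eq, ENNReal.rpow_eq_zero_iff_of_pos (by linarith)]; exact hd
        rw [mul_left_comm ((nm d) ^ (2 * t)), ENNReal.mul_inv_cancel h2 hfin2, mul_one,
          ← ENNReal.ofReal_mul hM.le, ← ENNReal.ofReal_add (by positivity) hK.le, mul_comm]

/-! ### lower bounds -/

theorem low_one {s : ℝ} (h0 : 0 < s) (h1 : s ≤ 1) (a b : ℂ) :
    (‖a‖ₑ + ‖b‖ₑ) ^ s ≤ 4 * ∫⁻ u in Set.Icc (-1 : ℝ) 1, ‖a + u * b‖ₑ ^ s := by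
  obtain ⟨F, hF⟩ : ∃ F : ℝ → ℝ≥0∞, F = fun u : ℝ => ‖a + (u : ℂ) * b‖ₑ ^ s := ⟨_, rfl⟩
  have hFm : Measurable F := by
    rw [hF]
    exact (by fun_prop : Measurable fun u : ℝ => a + (u : ℂ) * b).enorm.pow_const s
  have hpt : ∀ u ∈ Set.Icc (1 / 2 : ℝ) 1, (‖a‖ₑ + ‖b‖ₑ) ^ s ≤ 2 * (F u + F (-u)) := by
    intro u hu
    have h2 : ‖a‖ + ‖b‖ ≤ 2 * (‖a + u * b‖ + ‖a + ((-u : ℝ) : ℂ) * b‖) := by
      have ha : ‖a‖ ≤ (‖a + u * b‖ + ‖a + ((-u : ℝ) : ℂ) * b‖) / 2 := by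
        have h3 : a = ((a + u * b) + (a + ((-u : ℝ) : ℂ) * b)) / 2 := by push_cast; ring
        calc ‖a‖ = ‖((a + u * b) + (a + ((-u : ℝ) : ℂ) * b)) / 2‖ := by rw [← h3]
          _ = ‖(a + u * b) + (a + ((-u : ℝ) : ℂ) * b)‖ / 2 := by rw [norm_div]; norm_num
          _ ≤ _ := by
            have := norm_add_le (a + u * b) (a + ((-u : ℝ) : ℂ) * b)
            linarith
      have hb : u * ‖b‖ ≤ (‖a + u * b‖ + ‖a + ((-u : ℝ) : ℂ) * b‖) / 2 := by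
        have h3 : (u : ℂ) * b = ((a + u * b) - (a + ((-u : ℝ) : ℂ) * b)) / 2 := by push_cast; ring
        calc u * ‖b‖ = ‖(u : ℂ) * b‖ := by
              rw [norm_mul, Complex.norm_real, Real.norm_of_nonneg (by linarith [hu.1])]
          _ = ‖((a + u * b) - (a + ((-u : ℝ) : ℂ) * b)) / 2‖ := by rw [← h3]
          _ = ‖(a + u * b) - (a + ((-u : ℝ) : ℂ) * b)‖ / 2 := by rw [norm_div]; norm_num
          _ ≤ _ := by
            have := norm_sub_le (a + u * b) (a + ((-u : ℝ) : ℂ) * b)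
            linarith
      nlinarith [hu.1, norm_nonneg b]
    have h3 : ‖a‖ₑ + ‖b‖ₑ ≤ 2 * (‖a + u * b‖ₑ + ‖a + ((-u : ℝ) : ℂ) * b‖ₑ) := by
      rw [← ofReal_norm_eq_enorm, ← ofReal_norm_eq_enorm, ← ofReal_norm_eq_enorm,
        ← ofReal_norm_eq_enorm, ← ENNReal.ofReal_add (norm_nonneg _) (norm_nonneg _),
        ← ENNReal.ofReal_add (norm_nonneg _) (norm_nonneg _)]
      calc ENNReal.ofReal (‖a‖ + ‖b‖) ≤
          ENNReal.ofReal (2 * (‖a + u * b‖ + ‖a + ((-u : ℝ) : ℂ) * b‖)) :=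
            ENNReal.ofReal_le_ofReal h2
        _ = _ := by
            rw [ENNReal.ofReal_mul (by norm_num)]
            norm_num
    calc (‖a‖ₑ + ‖b‖ₑ) ^ s ≤ (2 * (‖a + u * b‖ₑ + ‖a + ((-u : ℝ) : ℂ) * b‖ₑ)) ^ s :=
          ENNReal.rpow_le_rpow h3 h0.le
      _ = 2 ^ s * (‖a + u * b‖ₑ + ‖a + ((-u : ℝ) : ℂ) * b‖ₑ) ^ s :=
          ENNReal.mul_rpow_of_nonneg _ _ h0.le
      _ ≤ 2 * (F u + F (-u)) := by
          refine mul_le_mul' ?_ ?_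
          · calc (2 : ℝ≥0∞) ^ s ≤ 2 ^ (1 : ℝ) :=
                  ENNReal.rpow_le_rpow_of_exponent_le (by norm_num) h1
              _ = 2 := ENNReal.rpow_one 2
          · rw [hF]
            exact ENNReal.rpow_add_le_add_rpow _ _ h0.le h1
  have hneg : ∫⁻ u in Set.Icc (1 / 2 : ℝ) 1, F (-u) = ∫⁻ u in Set.Icc (-1 : ℝ) (-(1 / 2)), F u := by
    have h2 := (Measure.measurePreserving_neg (volume : Measure ℝ)).setLIntegral_comp_preimage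
      (s := Set.Icc (-1 : ℝ) (-(1 / 2))) measurableSet_Icc hFm
    rw [← h2]
    congr 2
    ext u
    simp only [Set.mem_preimage, Set.mem_Icc]
    constructor
    · rintro ⟨h3, h4⟩; constructor <;> linarith
    · rintro ⟨h3, h4⟩; constructor <;> linarith
  have hsum : ∫⁻ u in Set.Icc (1 / 2 : ℝ) 1, (F u + F (-u)) ≤ ∫⁻ u in Set.Icc (-1 : ℝ) 1, F u := by
    rw [lintegral_add_left hFm, hneg, ← lintegral_union measurableSet_Icc]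
    · refine lintegral_mono_set ?_
      intro u hu
      rcases hu with hu | hu
      · exact ⟨by linarith [hu.1], hu.2⟩
      · exact ⟨hu.1, by linarith [hu.2]⟩
    · rw [Set.disjoint_iff]
      rintro u ⟨h3, h4⟩
      have := h3.1
      have := h4.2
      exact (by linarith : False).elim
  have hconst : ∫⁻ u in Set.Icc (1 / 2 : ℝ) 1, (‖a‖ₑ + ‖b‖ₑ) ^ s = (‖a‖ₑ + ‖b‖ₑ) ^ s * 2⁻¹ := by
    rw [setLIntegral_const, Real.volume_Icc]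
    congr 1
    rw [← ENNReal.ofReal_ofNat 2, ← ENNReal.ofReal_inv_of_pos (by norm_num)]
    norm_num
  have hmain : (‖a‖ₑ + ‖b‖ₑ) ^ s * 2⁻¹ ≤ 2 * ∫⁻ u in Set.Icc (-1 : ℝ) 1, F u := by
    rw [← hconst]
    calc ∫⁻ u in Set.Icc (1 / 2 : ℝ) 1, (‖a‖ₑ + ‖b‖ₑ) ^ s
        ≤ ∫⁻ u in Set.Icc (1 / 2 : ℝ) 1, 2 * (F u + F (-u)) :=
          setLIntegral_mono' measurableSet_Icc hpt
      _ = 2 * ∫⁻ u in Set.Icc (1 / 2 : ℝ) 1, (F u + F (-u)) := by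
          rw [lintegral_const_mul' _ _ (by norm_num)]
      _ ≤ _ := mul_le_mul_right hsum _
  have hF' : ∫⁻ u in Set.Icc (-1 : ℝ) 1, F u = ∫⁻ u in Set.Icc (-1 : ℝ) 1, ‖a + u * b‖ₑ ^ s := by
    rw [hF]
  rw [← hF']
  calc (‖a‖ₑ + ‖b‖ₑ) ^ s = (‖a‖ₑ + ‖b‖ₑ) ^ s * 2⁻¹ * 2 := by
        rw [mul_assoc, ENNReal.inv_mul_cancel (by norm_num) (by norm_num), mul_one]
    _ ≤ (2 * ∫⁻ u in Set.Icc (-1 : ℝ) 1, F u) * 2 := mul_le_mul_left hmain _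
    _ = 4 * ∫⁻ u in Set.Icc (-1 : ℝ) 1, F u := by ring

/-- **lower bound** -/
theorem lower_two {s : ℝ} (h0 : 0 < s) (h1 : s ≤ 1) {c0 : ℝ} (hc0 : 0 < c0) (C0 : ℝ)
    (ν : Measure ℝ) (hν : Reg C0 c0 ν) (n d : Fin 4 → ℂ) (hd : nm d ≠ 0) :
    (nm n) ^ s * ((nm d) ^ s)⁻¹ ≤ ENNReal.ofReal (128 / c0 ^ 2) *
      ∫⁻ v, ∫⁻ u, ‖MA n u v‖ₑ ^ s * (‖MA d u v‖ₑ ^ s)⁻¹ ∂ν ∂ν := by
  have hI : MeasurableSet (Set.Icc (-1 : ℝ) 1) := measurableSet_Icc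
  -- the numerator
  have s1 : (nm n) ^ s ≤ 32 * ∫⁻ v in Set.Icc (-1 : ℝ) 1, ∫⁻ u in Set.Icc (-1 : ℝ) 1,
      ‖MA n u v‖ₑ ^ s := by
    have e : nm n = (‖n 0‖ₑ + ‖n 2‖ₑ) + (‖n 1‖ₑ + ‖n 3‖ₑ) := by unfold nm; ring
    have hpt : ∀ v : ℝ, ‖n 0 + v * n 2‖ₑ ^ s + ‖n 1 + v * n 3‖ₑ ^ s ≤
        8 * ∫⁻ u in Set.Icc (-1 : ℝ) 1, ‖MA n u v‖ₑ ^ s := by
      intro v
      have h2 := low_one h0 h1 (n 0 + v * n 2) (n 1 + v * n 3)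
      simp only [← MA_eq] at h2
      calc ‖n 0 + v * n 2‖ₑ ^ s + ‖n 1 + v * n 3‖ₑ ^ s ≤
          (‖n 0 + v * n 2‖ₑ + ‖n 1 + v * n 3‖ₑ) ^ s + (‖n 0 + v * n 2‖ₑ + ‖n 1 + v * n 3‖ₑ) ^ s :=
            add_le_add (ENNReal.rpow_le_rpow le_self_add h0.le)
              (ENNReal.rpow_le_rpow le_add_self h0.le)
        _ = 2 * (‖n 0 + v * n 2‖ₑ + ‖n 1 + v * n 3‖ₑ) ^ s := by ring
        _ ≤ 2 * (4 * ∫⁻ u in Set.Icc (-1 : ℝ) 1, ‖MA n u v‖ₑ ^ s) := mul_le_mul_right h2 _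
        _ = _ := by ring
    calc (nm n) ^ s ≤ (‖n 0‖ₑ + ‖n 2‖ₑ) ^ s + (‖n 1‖ₑ + ‖n 3‖ₑ) ^ s := by
          rw [e]; exact ENNReal.rpow_add_le_add_rpow _ _ h0.le h1
      _ ≤ 4 * (∫⁻ v in Set.Icc (-1 : ℝ) 1, ‖n 0 + v * n 2‖ₑ ^ s) +
          4 * (∫⁻ v in Set.Icc (-1 : ℝ) 1, ‖n 1 + v * n 3‖ₑ ^ s) :=
          add_le_add (low_one h0 h1 _ _) (low_one h0 h1 _ _)
      _ = 4 * ∫⁻ v in Set.Icc (-1 : ℝ) 1, (‖n 0 + v * n 2‖ₑ ^ s + ‖n 1 + v * n 3‖ₑ ^ s) := by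
          rw [lintegral_add_left, mul_add]
          exact (by fun_prop : Measurable fun v : ℝ => n 0 + (v : ℂ) * n 2).enorm.pow_const s
      _ ≤ 4 * ∫⁻ v in Set.Icc (-1 : ℝ) 1, 8 * ∫⁻ u in Set.Icc (-1 : ℝ) 1, ‖MA n u v‖ₑ ^ s :=
          mul_le_mul_right (lintegral_mono hpt) _
      _ = _ := by
          rw [lintegral_const_mul' _ _ (by norm_num)]
          ring
  -- the denominator on the square
  have s2 : ∀ u ∈ Set.Icc (-1 : ℝ) 1, ∀ v ∈ Set.Icc (-1 : ℝ) 1,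
      ‖MA n u v‖ₑ ^ s * ((nm d) ^ s)⁻¹ ≤ 4 * (‖MA n u v‖ₑ ^ s * (‖MA d u v‖ₑ ^ s)⁻¹) := by
    intro u hu v hv
    have h2 : ‖MA d u v‖ₑ ≤ 4 * nm d := by
      refine (MA_le d u v).trans ?_
      rw [mul_comm]
      refine mul_le_mul_left ?_ _
      have hu' : |u| ≤ 1 := abs_le.2 hu
      have hv' : |v| ≤ 1 := abs_le.2 hv
      calc ENNReal.ofReal (1 + |u|) * ENNReal.ofReal (1 + |v|) ≤ ENNReal.ofReal 2 * ENNReal.ofReal 2 :=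
            mul_le_mul' (ENNReal.ofReal_le_ofReal (by linarith))
              (ENNReal.ofReal_le_ofReal (by linarith))
        _ = 4 := by
            rw [← ENNReal.ofReal_mul (by norm_num)]
            norm_num
    have h3 : ‖MA d u v‖ₑ ^ s ≤ 4 * (nm d) ^ s := by
      calc ‖MA d u v‖ₑ ^ s ≤ (4 * nm d) ^ s := ENNReal.rpow_le_rpow h2 h0.le
        _ = 4 ^ s * (nm d) ^ s := ENNReal.mul_rpow_of_nonneg _ _ h0.le
        _ ≤ 4 * (nm d) ^ s := by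
          refine mul_le_mul_left ?_ _
          calc (4 : ℝ≥0∞) ^ s ≤ 4 ^ (1 : ℝ) :=
                ENNReal.rpow_le_rpow_of_exponent_le (by norm_num) h1
            _ = 4 := ENNReal.rpow_one 4
    have h4 : ((nm d) ^ s)⁻¹ ≤ 4 * (‖MA d u v‖ₑ ^ s)⁻¹ := by
      have h5 : (4 * (nm d) ^ s)⁻¹ ≤ (‖MA d u v‖ₑ ^ s)⁻¹ := ENNReal.inv_le_inv.2 h3
      rw [ENNReal.mul_inv (Or.inl (by norm_num)) (Or.inl (by norm_num))] at h5
      calc ((nm d) ^ s)⁻¹ = 4 * (4⁻¹ * ((nm d) ^ s)⁻¹) := by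
            rw [← mul_assoc, ENNReal.mul_inv_cancel (by norm_num) (by norm_num), one_mul]
        _ ≤ _ := mul_le_mul_right h5 _
    calc ‖MA n u v‖ₑ ^ s * ((nm d) ^ s)⁻¹ ≤ ‖MA n u v‖ₑ ^ s * (4 * (‖MA d u v‖ₑ ^ s)⁻¹) :=
          mul_le_mul_right h4 _
      _ = _ := by ring
  have hΔ : ((nm d) ^ s)⁻¹ ≠ ⊤ := by
    rw [ENNReal.inv_ne_top, ne_eq, ENNReal.rpow_eq_zero_iff_of_pos h0]
    exact hd
  have s3 : (∫⁻ v in Set.Icc (-1 : ℝ) 1, ∫⁻ u in Set.Icc (-1 : ℝ) 1, ‖MA n u v‖ₑ ^ s) *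
      ((nm d) ^ s)⁻¹ ≤ 4 * ∫⁻ v in Set.Icc (-1 : ℝ) 1, ∫⁻ u in Set.Icc (-1 : ℝ) 1,
        ‖MA n u v‖ₑ ^ s * (‖MA d u v‖ₑ ^ s)⁻¹ := by
    rw [← lintegral_mul_const' _ _ hΔ, ← lintegral_const_mul' _ _ (by norm_num)]
    refine setLIntegral_mono' hI fun v hv => ?_
    rw [← lintegral_mul_const' _ _ hΔ, ← lintegral_const_mul' _ _ (by norm_num)]
    exact setLIntegral_mono' hI fun u hu => s2 u hu v hv
  -- the law
  have s4 : ENNReal.ofReal c0 * (ENNReal.ofReal c0 * ∫⁻ v in Set.Icc (-1 : ℝ) 1,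
      ∫⁻ u in Set.Icc (-1 : ℝ) 1, ‖MA n u v‖ₑ ^ s * (‖MA d u v‖ₑ ^ s)⁻¹) ≤
      ∫⁻ v, ∫⁻ u, ‖MA n u v‖ₑ ^ s * (‖MA d u v‖ₑ ^ s)⁻¹ ∂ν ∂ν := by
    calc ENNReal.ofReal c0 * (ENNReal.ofReal c0 * ∫⁻ v in Set.Icc (-1 : ℝ) 1,
      ∫⁻ u in Set.Icc (-1 : ℝ) 1, ‖MA n u v‖ₑ ^ s * (‖MA d u v‖ₑ ^ s)⁻¹)
        = ENNReal.ofReal c0 * (∫⁻ v in Set.Icc (-1 : ℝ) 1, ENNReal.ofReal c0 *
      ∫⁻ u in Set.Icc (-1 : ℝ) 1, ‖MA n u v‖ₑ ^ s * (‖MA d u v‖ₑ ^ s)⁻¹) := by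
          rw [lintegral_const_mul' _ _ ENNReal.ofReal_ne_top]
      _ ≤ ENNReal.ofReal c0 * (∫⁻ v in Set.Icc (-1 : ℝ) 1,
          ∫⁻ u, ‖MA n u v‖ₑ ^ s * (‖MA d u v‖ₑ ^ s)⁻¹ ∂ν) :=
          mul_le_mul_right (lintegral_mono fun v => hν.le_lintegral _) _
      _ ≤ _ := hν.le_lintegral _
  have hc : ENNReal.ofReal (128 / c0 ^ 2) * (ENNReal.ofReal c0 * ENNReal.ofReal c0) = 128 := by
    rw [← ENNReal.ofReal_mul hc0.le, ← ENNReal.ofReal_mul (by positivity)]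
    rw [show 128 / c0 ^ 2 * (c0 * c0) = 128 by field_simp]
    norm_num
  calc (nm n) ^ s * ((nm d) ^ s)⁻¹ ≤ (32 * ∫⁻ v in Set.Icc (-1 : ℝ) 1, ∫⁻ u in Set.Icc (-1 : ℝ) 1,
        ‖MA n u v‖ₑ ^ s) * ((nm d) ^ s)⁻¹ := mul_le_mul_left s1 _
    _ = 32 * ((∫⁻ v in Set.Icc (-1 : ℝ) 1, ∫⁻ u in Set.Icc (-1 : ℝ) 1, ‖MA n u v‖ₑ ^ s) *
          ((nm d) ^ s)⁻¹) := by ring
    _ ≤ 32 * (4 * ∫⁻ v in Set.Icc (-1 : ℝ) 1, ∫⁻ u in Set.Icc (-1 : ℝ) 1,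
        ‖MA n u v‖ₑ ^ s * (‖MA d u v‖ₑ ^ s)⁻¹) := mul_le_mul_right s3 _
    _ = 128 * ∫⁻ v in Set.Icc (-1 : ℝ) 1, ∫⁻ u in Set.Icc (-1 : ℝ) 1,
        ‖MA n u v‖ₑ ^ s * (‖MA d u v‖ₑ ^ s)⁻¹ := by ring
    _ = ENNReal.ofReal (128 / c0 ^ 2) * (ENNReal.ofReal c0 * (ENNReal.ofReal c0 *
        ∫⁻ v in Set.Icc (-1 : ℝ) 1, ∫⁻ u in Set.Icc (-1 : ℝ) 1,
        ‖MA n u v‖ₑ ^ s * (‖MA d u v‖ₑ ^ s)⁻¹)) := by
        rw [← hc]; ring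
    _ ≤ _ := mul_le_mul_right s4 _

/-- **decoupling**: a factor with bounded second moment can be removed -/
theorem dec_two {s : ℝ} (h0 : 0 < s) (h1 : s < 1 / 4) (C0 : ℝ) {c0 : ℝ} (hc0 : 0 < c0) (Cg : ℝ)
    (hCg : 0 ≤ Cg) : ∃ K : ℝ, 0 < K ∧ ∀ (ν : Measure ℝ), Reg C0 c0 ν → ∀ n d : Fin 4 → ℂ,
      nm d ≠ 0 → ∀ g : ℝ → ℝ → ℝ≥0∞, Measurable (fun p : ℝ × ℝ => g p.1 p.2) →
      ∫⁻ v, ∫⁻ u, g u v ^ 2 ∂ν ∂ν ≤ ENNReal.ofReal Cg →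
      ∫⁻ v, ∫⁻ u, g u v * (‖MA n u v‖ₑ ^ s * (‖MA d u v‖ₑ ^ s)⁻¹) ∂ν ∂ν ≤
        ENNReal.ofReal K * ∫⁻ v, ∫⁻ u, ‖MA n u v‖ₑ ^ s * (‖MA d u v‖ₑ ^ s)⁻¹ ∂ν ∂ν := by
  obtain ⟨K, hK, H⟩ := upper_two (t := 2 * s) (by linarith) (by linarith) C0
  refine ⟨(Cg + K) * (128 / c0 ^ 2), by positivity, fun ν hν n d hd g hg hg2 => ?_⟩
  obtain ⟨F, hF⟩ : ∃ F : ℝ≥0∞, F = (nm n) ^ s * ((nm d) ^ s)⁻¹ := ⟨_, rfl⟩
  have hd' : (nm d) ^ s ≠ 0 := by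
    rw [ne_eq, ENNReal.rpow_eq_zero_iff_of_pos h0]; exact hd
  have hFt : F ≠ ⊤ := by
    rw [hF]
    exact ENNReal.mul_ne_top (ENNReal.rpow_ne_top_of_nonneg h0.le (nm_ne_top n))
      (ENNReal.inv_ne_top.2 hd')
  by_cases hF0 : F = 0
  · have h2 : nm n = 0 := by
      rw [hF, mul_eq_zero] at hF0
      rcases hF0 with h | h
      · exact (ENNReal.rpow_eq_zero_iff_of_pos h0).1 h
      · rw [ENNReal.inv_eq_zero] at h
        exact absurd h (ENNReal.rpow_ne_top_of_nonneg h0.le (nm_ne_top d))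
    have h3 : ∀ u v, ‖MA n u v‖ₑ = 0 := by
      intro u v
      have := MA_le n u v
      rw [h2, zero_mul] at this
      exact le_antisymm this zero_le
    simp only [h3, ENNReal.zero_rpow_of_pos h0, zero_mul, mul_zero, lintegral_zero]
    exact zero_le
  · have hpt : ∀ u v : ℝ, g u v * (‖MA n u v‖ₑ ^ s * (‖MA d u v‖ₑ ^ s)⁻¹) ≤
        F * (g u v ^ 2 + (F⁻¹) ^ 2 * (‖MA n u v‖ₑ ^ (2 * s) * (‖MA d u v‖ₑ ^ (2 * s))⁻¹)) := by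
      intro u v
      have h2 := mul_le_scaled (g u v) (‖MA n u v‖ₑ ^ s * (‖MA d u v‖ₑ ^ s)⁻¹) F⁻¹
        (ENNReal.inv_ne_zero.2 hFt) (ENNReal.inv_ne_top.2 hF0)
      rw [inv_inv] at h2
      refine h2.trans (le_of_eq ?_)
      have h3 : ((‖MA d u v‖ₑ ^ s)⁻¹) ^ 2 = (‖MA d u v‖ₑ ^ (2 * s))⁻¹ := by
        rw [← ENNReal.inv_pow, rpow_sq]
      rw [mul_pow, mul_pow, rpow_sq, h3]
    have hF2 : (F⁻¹) ^ 2 ≠ ⊤ := ENNReal.pow_ne_top (ENNReal.inv_ne_top.2 hF0)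
    have hg' : ∀ v, Measurable fun u => g u v ^ 2 := fun v =>
      (hg.comp (measurable_id.prodMk measurable_const)).pow_const 2
    have hg'' : Measurable fun v => ∫⁻ u, g u v ^ 2 ∂ν := by
      have := hν.prob
      exact Measurable.lintegral_prod_left' (f := fun p : ℝ × ℝ => g p.1 p.2 ^ 2)
        (hg.pow_const 2)
    calc ∫⁻ v, ∫⁻ u, g u v * (‖MA n u v‖ₑ ^ s * (‖MA d u v‖ₑ ^ s)⁻¹) ∂ν ∂ν
        ≤ ∫⁻ v, ∫⁻ u, F * (g u v ^ 2 + (F⁻¹) ^ 2 *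
          (‖MA n u v‖ₑ ^ (2 * s) * (‖MA d u v‖ₑ ^ (2 * s))⁻¹)) ∂ν ∂ν :=
          lintegral_mono fun v => lintegral_mono fun u => hpt u v
      _ = F * (∫⁻ v, ∫⁻ u, g u v ^ 2 ∂ν ∂ν + (F⁻¹) ^ 2 *
          ∫⁻ v, ∫⁻ u, ‖MA n u v‖ₑ ^ (2 * s) * (‖MA d u v‖ₑ ^ (2 * s))⁻¹ ∂ν ∂ν) := by
          have e1 : ∀ v : ℝ, ∫⁻ u, F * (g u v ^ 2 + (F⁻¹) ^ 2 *
              (‖MA n u v‖ₑ ^ (2 * s) * (‖MA d u v‖ₑ ^ (2 * s))⁻¹)) ∂ν =
              F * (∫⁻ u, g u v ^ 2 ∂ν + (F⁻¹) ^ 2 *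
                ∫⁻ u, ‖MA n u v‖ₑ ^ (2 * s) * (‖MA d u v‖ₑ ^ (2 * s))⁻¹ ∂ν) := by
            intro v
            rw [lintegral_const_mul' _ _ hFt, lintegral_add_left (hg' v),
              lintegral_const_mul' _ _ hF2]
          simp only [e1]
          rw [lintegral_const_mul' _ _ hFt, lintegral_add_left hg'', lintegral_const_mul' _ _ hF2]
      _ ≤ F * (ENNReal.ofReal Cg + (F⁻¹) ^ 2 *
          (ENNReal.ofReal K * ((nm n) ^ (2 * s) * ((nm d) ^ (2 * s))⁻¹))) :=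
          mul_le_mul_right (add_le_add hg2 (mul_le_mul_right (H c0 ν hν n d hd) _)) _
      _ = F * (ENNReal.ofReal Cg + ENNReal.ofReal K) := by
          have h2 : (nm n) ^ (2 * s) * ((nm d) ^ (2 * s))⁻¹ = F ^ 2 := by
            rw [hF, mul_pow, rpow_sq, ← ENNReal.inv_pow, rpow_sq]
          rw [h2, mul_left_comm, ← mul_pow, ENNReal.inv_mul_cancel hF0 hFt, one_pow, mul_one]
      _ = ENNReal.ofReal (Cg + K) * F := by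
          rw [← ENNReal.ofReal_add hCg hK.le, mul_comm]
      _ ≤ ENNReal.ofReal (Cg + K) * (ENNReal.ofReal (128 / c0 ^ 2) *
          ∫⁻ v, ∫⁻ u, ‖MA n u v‖ₑ ^ s * (‖MA d u v‖ₑ ^ s)⁻¹ ∂ν ∂ν) := by
          rw [hF]
          exact mul_le_mul_right (lower_two h0 (by linarith) hc0 C0 ν hν n d hd) _
      _ = _ := by
          rw [ENNReal.ofReal_mul (by positivity), mul_assoc]

end P365L.FVC
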