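import Vale.Agent.P365.Bdl.B1
import Vale.Agent.P365.S6.Kol

set_option linter.all false

/-!
# P365 / FVC / Reg: a class of single site laws (dominated by the Cauchy law, density bounded from
below on `[-1,1]`), and moments of affine functions, uniformly over the class.
-/

namespace P365L.FVC

open MeasureTheory ProbabilityTheory Complex Filter Topology
open scoped ENNReal NNReal Real

/-- a class of single site laws -/
structure Reg (C0 c0 : ℝ) (ν : Measure ℝ) : Prop where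
  prob : IsProbabilityMeasure ν
  upper : ν ≤ ENNReal.ofReal C0 • nu
  lower : ENNReal.ofReal c0 • (volume.restrict (Set.Icc (-1 : ℝ) 1)) ≤ ν

variable {C0 c0 : ℝ} {ν : Measure ℝ}

theorem Reg.lintegral_le (h : Reg C0 c0 ν) (f : ℝ → ℝ≥0∞) :
    ∫⁻ u, f u ∂ν ≤ ENNReal.ofReal C0 * ∫⁻ u, f u ∂nu := by
  refine (lintegral_mono' h.upper le_rfl).trans ?_
  rw [lintegral_smul_measure, smul_eq_mul]

theorem Reg.le_lintegral (h : Reg C0 c0 ν) (f : ℝ → ℝ≥0∞) :
    ENNReal.ofReal c0 * ∫⁻ u in Set.Icc (-1 : ℝ) 1, f u ≤ ∫⁻ u, f u ∂ν := by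
  refine le_trans ?_ (lintegral_mono' h.lower le_rfl)
  rw [lintegral_smul_measure, smul_eq_mul]

theorem Reg.one_le (h : Reg C0 c0 ν) : 1 ≤ C0 := by
  have h1 := h.upper Set.univ
  have := h.prob
  rw [measure_univ, Measure.smul_apply, measure_univ, smul_eq_mul, mul_one,
    ENNReal.one_le_ofReal] at h1
  exact h1

/-! ### negative moments: Kolmogorov's argument -/

/-- the case of a pole in the upper half plane -/
theorem kol_pos {r : ℝ} (h0 : 0 < r) (h1 : r < 1) {p : ℂ} (hp : 0 < p.im) :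
    ∫⁻ t : ℝ, ENNReal.ofReal (‖(t : ℂ) - p‖ ^ (-r)) ∂nu ≤
      ENNReal.ofReal ((Real.cos (π * r / 2))⁻¹ * ‖-I - p‖ ^ (-r)) := by
  have hc := P365S6.cos_pos h0 h1
  obtain ⟨G, hG⟩ : ∃ G : ℂ → ℂ, G = fun w => (I * (w - p))⁻¹ := ⟨_, rfl⟩
  have hre0 : ∀ w : ℂ, w.im ≤ 0 → p.im ≤ (I * (w - p)).re := by
    intro w hw
    simp only [mul_re, I_re, zero_mul, I_im, one_mul, sub_im, zero_sub]
    linarith
  have hne : ∀ w : ℂ, w.im ≤ 0 → I * (w - p) ≠ 0 := by
    intro w hw h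
    have := hre0 w hw
    rw [h, zero_re] at this
    linarith
  have hGre : ∀ w : ℂ, w.im ≤ 0 → 0 < (G w).re := by
    intro w hw
    rw [hG]
    simp only [inv_re]
    exact div_pos (hp.trans_le (hre0 w hw)) (normSq_pos.2 (hne w hw))
  have hGn : ∀ w : ℂ, ‖G w‖ = ‖w - p‖⁻¹ := by
    intro w
    rw [hG]
    simp only [norm_inv, norm_mul, norm_I, one_mul]
  have hGd : ∀ w : ℂ, w.im ≤ 0 → DifferentiableAt ℂ G w := by
    intro w hw
    rw [hG]
    exact ((differentiableAt_id.sub_const p).const_mul I).inv (hne w hw)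
  have hFd : ∀ w : ℂ, w.im ≤ 0 → DifferentiableAt ℂ (fun w => G w ^ (r : ℂ)) w := fun w hw =>
    (hGd w hw).cpow_const (Or.inl (hGre w hw))
  have hGne : ∀ w : ℂ, w.im ≤ 0 → G w ≠ 0 := by
    intro w hw h
    have := hGre w hw
    rw [h, zero_re] at this
    exact lt_irrefl _ this
  have hFn : ∀ w : ℂ, w.im ≤ 0 → ‖G w ^ (r : ℂ)‖ = ‖w - p‖ ^ (-r) := by
    intro w hw
    rw [P365S6.norm_cpow_real (hGne w hw), hGn, Real.inv_rpow (norm_nonneg _),
      Real.rpow_neg (norm_nonneg _)]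
  have hwp : ∀ w : ℂ, w.im ≤ 0 → p.im ≤ ‖w - p‖ := by
    intro w hw
    have h2 := Complex.abs_im_le_norm (w - p)
    rw [sub_im] at h2
    have h3 : p.im - w.im ≤ |w.im - p.im| := by
      rw [abs_sub_comm]; exact le_abs_self _
    linarith
  have hb : ∀ w : ℂ, w.im ≤ 0 → ‖G w ^ (r : ℂ)‖ ≤ p.im ^ (-r) := by
    intro w hw
    rw [hFn w hw]
    exact Real.rpow_le_rpow_of_nonpos hp (hwp w hw) (by linarith)
  have hmean := P365S6.nu_mean (F := fun w => G w ^ (r : ℂ))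
    (fun w hw => (hFd w (le_of_lt hw)).differentiableWithinAt)
    (fun w hw => (hFd w hw).continuousAt.continuousWithinAt) hb
  have hcont : Continuous fun t : ℝ => G t ^ (r : ℂ) := by
    rw [continuous_iff_continuousAt]
    intro t
    exact ((hFd t (by simp)).continuousAt).comp (f := fun t : ℝ => (t : ℂ))
      Complex.continuous_ofReal.continuousAt
  have hint : Integrable (fun t : ℝ => G t ^ (r : ℂ)) nu :=
    Integrable.of_bound hcont.aestronglyMeasurable (p.im ^ (-r))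
      (Eventually.of_forall fun t => hb t (by simp))
  have hint' : Integrable (fun t : ℝ => ‖(t : ℂ) - p‖ ^ (-r)) nu := by
    refine hint.norm.congr (Eventually.of_forall fun t => ?_)
    exact hFn t (by simp)
  have h2 : ∫ t : ℝ, Real.cos (π * r / 2) * ‖(t : ℂ) - p‖ ^ (-r) ∂nu ≤
      ∫ t : ℝ, (G t ^ (r : ℂ)).re ∂nu := by
    refine integral_mono (hint'.const_mul _) hint.re fun t => ?_
    have h3 := P365S6.re_cpow_ge (hGre t (by simp)) h0.le h1.le
    rw [← P365S6.norm_cpow_real (hGne t (by simp)), hFn t (by simp)] at h3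
    exact h3
  have h3 : ∫ t : ℝ, (G t ^ (r : ℂ)).re ∂nu = (G (-I) ^ (r : ℂ)).re := by
    have h4 : ∫ t : ℝ, (G t ^ (r : ℂ)).re ∂nu = (∫ t : ℝ, G t ^ (r : ℂ) ∂nu).re := by
      exact integral_re hint
    rw [h4]
    congr 1
  have h4 : (G (-I) ^ (r : ℂ)).re ≤ ‖-I - p‖ ^ (-r) := by
    refine (Complex.re_le_norm _).trans ?_
    rw [hFn (-I) (by simp)]
  rw [integral_const_mul, h3] at h2
  have h5 : ∫ t : ℝ, ‖(t : ℂ) - p‖ ^ (-r) ∂nu ≤
      (Real.cos (π * r / 2))⁻¹ * ‖-I - p‖ ^ (-r) := by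
    rw [inv_mul_eq_div, le_div_iff₀ hc, mul_comm]
    exact h2.trans h4
  rw [← ofReal_integral_eq_lintegral_ofReal hint' (Eventually.of_forall fun t => by positivity)]
  exact ENNReal.ofReal_le_ofReal h5

/-- a pole in the closed upper half plane -/
theorem kol_nonneg {r : ℝ} (h0 : 0 < r) (h1 : r < 1) {p : ℂ} (hp : 0 ≤ p.im) :
    ∫⁻ t : ℝ, ENNReal.ofReal (‖(t : ℂ) - p‖ ^ (-r)) ∂nu ≤
      ENNReal.ofReal ((Real.cos (π * r / 2))⁻¹ * ‖-I - p‖ ^ (-r)) := by
  have hc := P365S6.cos_pos h0 h1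
  obtain ⟨δ, hδ⟩ : ∃ δ : ℕ → ℝ, δ = fun n : ℕ => 1 / ((n : ℝ) + 1) := ⟨_, rfl⟩
  have hδ0 : ∀ n, 0 < δ n := fun n => by rw [hδ]; simp only; positivity
  have hδt : Tendsto δ atTop (𝓝 0) := by rw [hδ]; exact tendsto_one_div_add_atTop_nhds_zero_nat
  have hpt : Tendsto (fun n => p + δ n * I) atTop (𝓝 p) := by
    have h2 : Tendsto (fun n => ((δ n : ℝ) : ℂ)) atTop (𝓝 ((0 : ℝ) : ℂ)) :=
      (Complex.continuous_ofReal.tendsto 0).comp hδt
    have h3 := (h2.mul_const I).const_add p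
    simpa using h3
  have hIp : ‖-I - p‖ ≠ 0 := by
    rw [norm_ne_zero_iff]
    intro h
    have := congrArg Complex.im h
    simp at this
    linarith
  have hle : ∀ n, ∫⁻ t : ℝ, ENNReal.ofReal (‖(t : ℂ) - (p + δ n * I)‖ ^ (-r)) ∂nu ≤
      ENNReal.ofReal ((Real.cos (π * r / 2))⁻¹ * ‖-I - p‖ ^ (-r)) := by
    intro n
    have him : 0 < (p + δ n * I).im := by
      have := hδ0 n
      simp
      linarith
    refine (kol_pos h0 h1 him).trans (ENNReal.ofReal_le_ofReal ?_)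
    refine mul_le_mul_of_nonneg_left ?_ (inv_nonneg.2 hc.le)
    refine Real.rpow_le_rpow_of_nonpos (lt_of_le_of_ne (norm_nonneg _) (Ne.symm hIp)) ?_
      (by linarith)
    rw [← abs_of_nonneg (norm_nonneg (-I - p)), ← abs_of_nonneg (norm_nonneg (-I - (p + δ n * I))),
      ← sq_le_sq, Complex.sq_norm, Complex.sq_norm, Complex.normSq_apply, Complex.normSq_apply]
    have := hδ0 n
    simp only [sub_re, neg_re, I_re, neg_zero, zero_sub, sub_im, neg_im, I_im, add_re, mul_re,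
      ofReal_re, mul_zero, ofReal_im, mul_one, sub_self, add_zero, add_im, mul_im, zero_add]
    nlinarith
  have hae : ∀ᵐ t : ℝ ∂nu, (t : ℂ) ≠ p := by
    have h2 : ∀ᵐ t : ℝ ∂nu, t ≠ p.re := by
      have h3 := nu_Icc_le p.re p.re le_rfl
      rw [Set.Icc_self, sub_self, ENNReal.ofReal_zero] at h3
      rw [ae_iff]
      simp only [ne_eq, not_not, Set.setOf_eq_eq_singleton]
      exact le_antisymm h3 zero_le
    filter_upwards [h2] with t ht h3
    exact ht (by rw [← h3, ofReal_re])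
  calc ∫⁻ t : ℝ, ENNReal.ofReal (‖(t : ℂ) - p‖ ^ (-r)) ∂nu
      ≤ ∫⁻ t : ℝ, liminf (fun n => ENNReal.ofReal (‖(t : ℂ) - (p + δ n * I)‖ ^ (-r))) atTop ∂nu := by
        refine lintegral_mono_ae ?_
        filter_upwards [hae] with t ht
        have h2 : Tendsto (fun n => ‖(t : ℂ) - (p + δ n * I)‖) atTop (𝓝 ‖(t : ℂ) - p‖) :=
          (hpt.const_sub (t : ℂ)).norm
        have h3 : Tendsto (fun n => ‖(t : ℂ) - (p + δ n * I)‖ ^ (-r)) atTop
            (𝓝 (‖(t : ℂ) - p‖ ^ (-r))) :=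
          h2.rpow_const (Or.inl (norm_ne_zero_iff.2 (sub_ne_zero.2 ht)))
        have h4 := (ENNReal.continuous_ofReal.tendsto _).comp h3
        exact h4.liminf_eq.ge
    _ ≤ liminf (fun n => ∫⁻ t : ℝ, ENNReal.ofReal (‖(t : ℂ) - (p + δ n * I)‖ ^ (-r)) ∂nu) atTop := by
        refine lintegral_liminf_le fun n => ?_
        refine ENNReal.measurable_ofReal.comp ?_
        exact ((Complex.measurable_ofReal.sub_const _).norm).pow_const _
    _ ≤ _ := by
        refine liminf_le_of_le (by isBoundedDefault) fun b hb => ?_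
        obtain ⟨n, hn⟩ := hb.exists
        exact hn.trans (hle n)

/-- negative moments of `t - p` -/
theorem kol_any {r : ℝ} (h0 : 0 < r) (h1 : r < 1) (p : ℂ) :
    ∫⁻ t : ℝ, ENNReal.ofReal (‖(t : ℂ) - p‖ ^ (-r)) ∂nu ≤
      ENNReal.ofReal ((Real.cos (π * r / 2))⁻¹ * (2 * (1 + ‖p‖) ^ (-r))) := by
  have hc := P365S6.cos_pos h0 h1
  have key : ∀ q : ℂ, 0 ≤ q.im → ‖-I - q‖ ^ (-r) ≤ 2 * (1 + ‖q‖) ^ (-r) := by
    intro q hq
    have h2 : (1 + ‖q‖) / 2 ≤ ‖-I - q‖ := by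
      have h3 : ‖-I - q‖ ^ 2 = ‖q‖ ^ 2 + 2 * q.im + 1 := by
        rw [Complex.sq_norm, Complex.sq_norm, Complex.normSq_apply, Complex.normSq_apply]
        simp only [sub_re, neg_re, I_re, neg_zero, zero_sub, sub_im, neg_im, I_im]
        ring
      have h4 : ((1 + ‖q‖) / 2) ^ 2 ≤ ‖-I - q‖ ^ 2 := by
        rw [h3]
        nlinarith [sq_nonneg (‖q‖ - 1), norm_nonneg q]
      exact le_of_sq_le_sq h4 (norm_nonneg _)
    have h5 : 0 < (1 + ‖q‖) / 2 := by positivity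
    refine (Real.rpow_le_rpow_of_nonpos h5 h2 (by linarith)).trans ?_
    rw [Real.div_rpow (by positivity) (by positivity), div_eq_mul_inv, mul_comm]
    refine mul_le_mul_of_nonneg_right ?_ (by positivity)
    rw [← Real.rpow_neg (by positivity), neg_neg]
    calc (2 : ℝ) ^ r ≤ 2 ^ (1 : ℝ) := Real.rpow_le_rpow_of_exponent_le (by norm_num) h1.le
      _ = 2 := Real.rpow_one 2
  rcases le_total 0 p.im with hp | hp
  · refine (kol_nonneg h0 h1 hp).trans (ENNReal.ofReal_le_ofReal ?_)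
    exact mul_le_mul_of_nonneg_left (key p hp) (inv_nonneg.2 hc.le)
  · have hq : 0 ≤ ((starRingEnd ℂ) p).im := by rw [conj_im]; linarith
    have h2 : ∀ t : ℝ, ‖(t : ℂ) - p‖ = ‖(t : ℂ) - (starRingEnd ℂ) p‖ := by
      intro t
      rw [← RCLike.norm_conj ((t : ℂ) - p), map_sub, conj_ofReal]
    simp only [h2]
    refine (kol_nonneg h0 h1 hq).trans (ENNReal.ofReal_le_ofReal ?_)
    refine mul_le_mul_of_nonneg_left ?_ (inv_nonneg.2 hc.le)
    have h3 := key _ hq
    rwa [RCLike.norm_conj] at h3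

/-- negative moments of affine functions, uniformly over the class -/
theorem neg_moment {r : ℝ} (h0 : 0 < r) (h1 : r < 1) (C0 : ℝ) : ∃ K : ℝ, 0 < K ∧
    ∀ (c0 : ℝ) (ν : Measure ℝ), Reg C0 c0 ν → ∀ a b : ℂ, 0 < ‖a‖ + ‖b‖ →
      ∫⁻ u : ℝ, ENNReal.ofReal (‖a + u * b‖ ^ (-r)) ∂ν ≤
        ENNReal.ofReal (K * (‖a‖ + ‖b‖) ^ (-r)) := by
  have hc := P365S6.cos_pos h0 h1
  refine ⟨|C0| * ((Real.cos (π * r / 2))⁻¹ * 2) + 1, by positivity, ?_⟩
  intro c0 ν hν a b hab
  have hC := hν.one_le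
  have := hν.prob
  have hrp : 0 < (‖a‖ + ‖b‖) ^ (-r) := Real.rpow_pos_of_pos hab _
  by_cases hb : b = 0
  · subst hb
    simp only [mul_zero, add_zero, norm_zero] at hab ⊢
    rw [lintegral_const, measure_univ, mul_one]
    refine ENNReal.ofReal_le_ofReal ?_
    have h2 : 0 < ‖a‖ ^ (-r) := Real.rpow_pos_of_pos hab _
    have h3 : 0 ≤ |C0| * ((Real.cos (π * r / 2))⁻¹ * 2) := by positivity
    nlinarith
  · have hb' : 0 < ‖b‖ := norm_pos_iff.2 hb
    have h2 : ∀ u : ℝ, ENNReal.ofReal (‖a + u * b‖ ^ (-r)) =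
        ENNReal.ofReal (‖b‖ ^ (-r)) * ENNReal.ofReal (‖(u : ℂ) - (-a / b)‖ ^ (-r)) := by
      intro u
      rw [← ENNReal.ofReal_mul (by positivity), ← Real.mul_rpow (norm_nonneg _) (norm_nonneg _),
        ← norm_mul]
      congr 3
      field_simp
      ring
    simp only [h2]
    rw [lintegral_const_mul _ (by
      refine ENNReal.measurable_ofReal.comp ?_
      exact ((Complex.measurable_ofReal.sub_const _).norm).pow_const _)]
    refine (mul_le_mul_right (hν.lintegral_le _) _).trans ?_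
    refine (mul_le_mul_right (mul_le_mul_right (kol_any h0 h1 (-a / b)) _) _).trans ?_
    rw [← ENNReal.ofReal_mul (by linarith), ← ENNReal.ofReal_mul (by positivity)]
    refine ENNReal.ofReal_le_ofReal ?_
    have h3 : ‖b‖ ^ (-r) * (1 + ‖-a / b‖) ^ (-r) = (‖a‖ + ‖b‖) ^ (-r) := by
      rw [← Real.mul_rpow (norm_nonneg _) (by positivity)]
      congr 1
      rw [norm_div, norm_neg]
      field_simp
      ring
    have h4 : |C0| = C0 := abs_of_nonneg (by linarith)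
    rw [h4]
    calc ‖b‖ ^ (-r) * (C0 * ((Real.cos (π * r / 2))⁻¹ * (2 * (1 + ‖-a / b‖) ^ (-r)))) =
        C0 * ((Real.cos (π * r / 2))⁻¹ * 2) * (‖b‖ ^ (-r) * (1 + ‖-a / b‖) ^ (-r)) := by ring
      _ = C0 * ((Real.cos (π * r / 2))⁻¹ * 2) * (‖a‖ + ‖b‖) ^ (-r) := by rw [h3]
      _ ≤ _ := mul_le_mul_of_nonneg_right (by linarith) hrp.le

/-- positive moments, uniformly over the class -/
theorem pos_moment {r : ℝ} (h0 : 0 < r) (h1 : r < 1) (C0 : ℝ) : ∃ M : ℝ, 0 < M ∧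
    ∀ (c0 : ℝ) (ν : Measure ℝ), Reg C0 c0 ν →
      ∫⁻ u : ℝ, ENNReal.ofReal ((1 + |u|) ^ r) ∂ν ≤ ENNReal.ofReal M := by
  have hfin : ∫⁻ u : ℝ, ENNReal.ofReal ((1 + |u|) ^ r) ∂nu ≠ ⊤ := by
    have e : nu = volume.withDensity (cauchyPDF 0 1) := P365S6.nu_eq_withDensity
    rw [e, lintegral_withDensity_eq_lintegral_mul _
      (measurable_cauchyPDF 0 1) (by
        refine ENNReal.measurable_ofReal.comp ?_
        exact ((measurable_const.add measurable_abs).pow_const _))]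
    have h2 : Integrable fun x : ℝ => (1 + ‖x‖) ^ (-(2 - r)) :=
      integrable_one_add_norm (by rw [Module.finrank_self]; push_cast; linarith)
    have h3 : ∀ x : ℝ, (cauchyPDF 0 1 * fun u : ℝ => ENNReal.ofReal ((1 + |u|) ^ r)) x ≤
        ENNReal.ofReal ((1 + ‖x‖) ^ (-(2 - r))) := by
      intro x
      simp only [Pi.mul_apply, cauchyPDF]
      rw [← ENNReal.ofReal_mul (cauchyPDF_pos 0 one_ne_zero x).le]
      refine ENNReal.ofReal_le_ofReal ?_
      have h4 : cauchyPDFReal 0 1 x ≤ (1 + |x|) ^ (-2 : ℝ) := by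
        rw [cauchyPDFReal_def', Real.rpow_neg (by positivity), Real.rpow_two]
        have h5 : (0 : ℝ) < 1 + x ^ 2 := by positivity
        have h6 : (1 + |x|) ^ 2 ≤ 2 * (1 + x ^ 2) := by
          have := sq_abs x
          nlinarith [sq_nonneg (|x| - 1), abs_nonneg x]
        have h7 : (0 : ℝ) < (1 + |x|) ^ 2 := by positivity
        simp only [NNReal.coe_one, div_one, sub_zero, mul_one, inv_one]
        have h8 : (2 : ℝ) ≤ π := Real.two_le_pi
        rw [← mul_inv, inv_le_inv₀ (by positivity) h7]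
        nlinarith
      calc cauchyPDFReal 0 1 x * (1 + |x|) ^ r ≤ (1 + |x|) ^ (-2 : ℝ) * (1 + |x|) ^ r :=
            mul_le_mul_of_nonneg_right h4 (by positivity)
        _ = (1 + ‖x‖) ^ (-(2 - r)) := by
            rw [← Real.rpow_add (by positivity), Real.norm_eq_abs]
            congr 1
            ring
    refine ne_top_of_le_ne_top ?_ (lintegral_mono h3)
    exact h2.lintegral_lt_top.ne
  refine ⟨(ENNReal.ofReal C0 * ∫⁻ u : ℝ, ENNReal.ofReal ((1 + |u|) ^ r) ∂nu).toReal + 1,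
    by positivity, ?_⟩
  intro c0 ν hν
  refine (hν.lintegral_le _).trans ?_
  refine le_trans ?_ (ENNReal.ofReal_le_ofReal (le_add_of_nonneg_right zero_le_one))
  rw [ENNReal.ofReal_toReal (ENNReal.mul_ne_top ENNReal.ofReal_ne_top hfin)]

end P365L.FVC
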